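import Vale.Agent.P205.Assemble

/-!
# Every smooth metric on the two-torus immerses isometrically and smoothly in `ℝ⁴`
-/

open scoped ContDiff Matrix

namespace Vale.Agent.Results.P205.TorusImmersion

/-- A smooth `ℤ²`-periodic metric on `ℝ²` has a smooth periodic isometric map to `ℝ⁴`. -/
theorem result :
    ∀ g : (Fin 2 → ℝ) → Matrix (Fin 2) (Fin 2) ℝ,
      (∀ i j, ContDiff ℝ ∞ fun x => g x i j) →
      (∀ (x : Fin 2 → ℝ) (k : Fin 2 → ℤ), g (x + fun i => (k i : ℝ)) = g x) →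
      (∀ x, (g x).PosDef) →
      ∃ F : (Fin 2 → ℝ) → EuclideanSpace ℝ (Fin 4), ContDiff ℝ ∞ F ∧
        (∀ (x : Fin 2 → ℝ) (k : Fin 2 → ℤ), F (x + fun i => (k i : ℝ)) = F x) ∧
        ∀ x u v : Fin 2 → ℝ,
          inner ℝ (fderiv ℝ F x u) (fderiv ℝ F x v) = u ⬝ᵥ (g x *ᵥ v) :=
  fun g hs hp hpos => Vale.Agent.P205.torus_immersion g hs hp hpos

end Vale.Agent.Results.P205.TorusImmersion
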